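import Vale.Agent.P272.K.AMP.BIG.H493.ProdInt
import Vale.Agent.P272.K.AMP.NEF.Main
import Vale.Agent.P272.K.QN.H705.Final

/-!
# AMP-BIG: reduction to dimension at least 3, quasi-negative curvature
-/

open scoped Manifold ContDiff ComplexOrder Topology
open Complex Set Filter MeasureTheory

set_option linter.all false

noncomputable section

namespace Vale.Agent.P272.K.AMP.BIG

open Vale.Agent.P272.K.INT (intX PP)

/-- ampleness in dimension `n` from HSC `≤ 0` and `(K_X)^n > 0` -/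
def AmpleBig (n : ℕ) : Prop :=
  ∀ (X : Type) [TopologicalSpace X] [T2Space X] [CompactSpace X] [ConnectedSpace X]
    [ChartedSpace (Cm n) X] [IsManifold 𝓘(ℂ, Cm n) ω X]
    (w h : Chart n X → Cm n → Matrix (Fin n) (Fin n) ℂ) (_ : IsKahler w) (_ : IsHermitian h)
    (_ : NonposHSC h) (_ : 0 < PP (phi0 w) w 0),
    ∃ φ : Chart n X → Cm n → ℝ, IsCanonicalMetric φ ∧
      ∀ e x, At e x → (cHess (φ e) (e x)).PosDef

/-- it suffices to prove it in dimensions `≥ 3` -/
theorem ampleBig_of_three (H : ∀ n, 3 ≤ n → AmpleBig n) : ∀ n, 1 ≤ n → AmpleBig n := by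
  intro n hn X _ _ _ _ _ _ w h hw hh hneg hP
  letI : ChartedSpace (Cm (n + n)) (X × X) := Prod.prodCS n n X X
  haveI : IsManifold 𝓘(ℂ, Cm (n + n)) ω (X × X) := Prod.isManifold_prod
  letI : ChartedSpace (Cm (n + (n + n))) (X × (X × X)) := Prod.prodCS n (n + n) X (X × X)
  haveI : IsManifold 𝓘(ℂ, Cm (n + (n + n))) ω (X × (X × X)) := Prod.isManifold_prod
  have h2 := Prod.pm_hermitian hh hh
  have w2 := Prod.pm_kahler hw hw
  have n2 := Prod.pm_nonposHSC hh hh hneg hneg
  have h3 := Prod.pm_hermitian hh h2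
  have w3 := Prod.pm_kahler hw w2
  have n3 := Prod.pm_nonposHSC hh h2 hneg n2
  have p2 : 0 < PP (phi0 (Prod.pm w w)) (Prod.pm w w) 0 := by
    rw [Prod.PP_prod hw hw]; exact mul_pos hP hP
  have p3 : 0 < PP (phi0 (Prod.pm w (Prod.pm w w))) (Prod.pm w (Prod.pm w w)) 0 := by
    rw [Prod.PP_prod hw w2]; exact mul_pos hP p2
  obtain ⟨x0⟩ := (inferInstance : Nonempty X)
  exact Prod.slice_ample (x0, x0) (H (n + (n + n)) (by omega) (X × (X × X)) _ _ w3 h3 n3 p3)

section
variable {n : ℕ} {X : Type} [TopologicalSpace X] [T2Space X] [CompactSpace X] [ConnectedSpace X]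
    [ChartedSpace (Cm n) X] [IsManifold 𝓘(ℂ, Cm n) ω X]
    {w h : Chart n X → Cm n → Matrix (Fin n) (Fin n) ℂ}

lemma PP_pos_of_isIntegral (hw : IsKahler w) {φ : Chart n X → Cm n → ℝ}
    (hφ : IsCanonicalMetric φ) {I : ℝ} (hI : 0 < I)
    (h : IsIntegral (fun e z => (cHess (φ e) z).det.re) I) : 0 < PP (phi0 w) w 0 := by
  rw [show phi0 w = fun e z => Real.log (w e z).det.re from rfl,
    INT.PP_eq (Main.isCanonical_logdet hw.toIsHermitian) hφ (INT.IsKahler.isClosedForm hw)]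
  unfold PP
  simp only [Complex.ofReal_zero, zero_smul, add_zero]
  rw [INT.intX_eq_of_isIntegral h]
  exact hI

lemma PP_pos_of_quasiNeg (hn : 1 ≤ n) (hw : IsKahler w) (hh : IsHermitian h)
    (hq : QuasiNegHSC h) : 0 < PP (phi0 w) w 0 := by
  have hnef := NEF.nef_of_nonpos hn hw hh hq.1
  have hc := Main.isCanonical_logdet hw.toIsHermitian
  obtain ⟨I, hI, hII⟩ := QN.big_of_quasiNeg hn hw hh hq le_rfl hnef hc
  refine PP_pos_of_isIntegral hw hc hI ?_
  simpa using hII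

/-- `(K_X)^n > 0` if `K_X` is positive -/
lemma PP_pos_of_ample (hw : IsKahler w) {φ : Chart n X → Cm n → ℝ} (hφ : IsCanonicalMetric φ)
    (hpos : ∀ e x, At e x → (cHess (φ e) (e x)).PosDef) :
    ∃ I : ℝ, 0 < I ∧ IsIntegral (fun e z => (cHess (φ e) z).det.re) I := by
  have hd := (INT.isClosedForm_canonical hφ).isDensity
  exact ⟨_, INT.intX_pos hd fun e x hx => (INT.posDef_det_re (hpos e x hx)).1, hd.isIntegral⟩

end

end Vale.Agent.P272.K.AMP.BIG
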