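import Vale.Agent.P272.K.AMP.NF.H977.Final
import Vale.Agent.P272.K.AMP.BIG.Defs

/-!
# The top self-intersection of the canonical bundle of a product
-/

open scoped Manifold ContDiff ComplexOrder Topology
open Complex Set Filter MeasureTheory

set_option linter.all false

noncomputable section

namespace Vale.Agent.P272.K.Prod

open Vale.Agent.P272.K
open Vale.Agent.P272.K.INT (IsDensity intX PP)

variable {n m : ℕ}

lemma glue_mp : MeasurePreserving (fun p : Cm n × Cm m => (glue p.1 p.2 : Cm (n + m)))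
    (volume : Measure (Cm n × Cm m)) volume := by
  have h1 := (volume_measurePreserving_sumPiEquivProdPi_symm
    (fun _ : Fin n ⊕ Fin m => ℂ))
  have h2 := volume_measurePreserving_piCongrLeft (fun _ : Fin (n + m) => ℂ)
    (finSumFinEquiv : Fin n ⊕ Fin m ≃ Fin (n + m))
  have h3 := h2.comp h1
  convert h3 using 1
  funext p k
  refine Fin.addCases (fun i => ?_) (fun i => ?_) k
  · simp only [glue_castAdd, Function.comp]
    have : (Fin.castAdd m i) = finSumFinEquiv (Sum.inl i) := by simp
    rw [this, MeasurableEquiv.coe_piCongrLeft, Equiv.piCongrLeft_apply_apply]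
    rfl
  · simp only [glue_natAdd, Function.comp]
    have : (Fin.natAdd n i) = finSumFinEquiv (Sum.inr i) := by simp
    rw [this, MeasurableEquiv.coe_piCongrLeft, Equiv.piCongrLeft_apply_apply]
    rfl

lemma integral_glue (F : Cm n → ℝ) (F' : Cm m → ℝ) :
    ∫ z : Cm (n + m), F (fstP z) * F' (sndP z) = (∫ z, F z) * ∫ z, F' z := by
  have h1 := glue_mp (n := n) (m := m)
  have h2 := h1.integral_comp (glueH (n := n) (m := m)).measurableEmbedding
    (fun z : Cm (n + m) => F (fstP z) * F' (sndP z))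
  rw [← h2]
  simp only [fstP_glue, sndP_glue]
  exact integral_prod_mul F F'

variable {X Y : Type} [TopologicalSpace X] [TopologicalSpace Y]

lemma integral_pc (e : Chart n X) (e' : Chart m Y) (F : Cm n → ℝ) (F' : Cm m → ℝ) :
    ∫ z in (pc e e').target, F (fstP z) * F' (sndP z) =
      (∫ z in e.target, F z) * ∫ z in e'.target, F' z := by
  rw [← integral_indicator (pc e e').open_target.measurableSet,
    ← integral_indicator e.open_target.measurableSet,
    ← integral_indicator e'.open_target.measurableSet, ← integral_glue]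
  congr 1
  funext z
  by_cases h1 : fstP z ∈ e.target <;> by_cases h2 : sndP z ∈ e'.target <;>
    simp [Set.indicator, mem_pc_target, h1, h2]

variable [ChartedSpace (Cm n) X] [ChartedSpace (Cm m) Y]

attribute [local instance] prodCS

section
variable [IsManifold 𝓘(ℂ, Cm n) ω X] [IsManifold 𝓘(ℂ, Cm m) ω Y] [T2Space X] [T2Space Y]
  [CompactSpace X] [CompactSpace Y]

/-- the integral of a product density -/
theorem intX_prod {D : Chart n X → Cm n → ℝ} {D' : Chart m Y → Cm m → ℝ}
    {E : Chart (n + m) (X × Y) → Cm (n + m) → ℝ} (hE : IsDensity E)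
    (h : ∀ e ∈ atlas (Cm n) X, ∀ e' ∈ atlas (Cm m) Y, ∀ z ∈ (pc e e').target,
      E (pc e e') z = D e (fstP z) * D' e' (sndP z)) :
    haveI : IsManifold 𝓘(ℂ, Cm (n + m)) ω (X × Y) := isManifold_prod
    intX E = intX D * intX D' := by
  haveI : IsManifold 𝓘(ℂ, Cm (n + m)) ω (X × Y) := isManifold_prod
  show intX E = intX D * intX D'
  set P := INT.part n X with hP
  set P' := INT.part m Y with hP'
  have h0 := hE.isIntegral (P.N * P'.N)
    (fun k => pc (P.e (finProdFinEquiv.symm k).1) (P'.e (finProdFinEquiv.symm k).2))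
    (fun k p => P.ρ (finProdFinEquiv.symm k).1 p.1 * P'.ρ (finProdFinEquiv.symm k).2 p.2)
    (fun k => ⟨_, P.mem _, _, P'.mem _, rfl⟩)
    (fun k => ((P.cont _).comp continuous_fst).mul ((P'.cont _).comp continuous_snd))
    (fun k => ?_) (fun p => ?_)
  · rw [← h0]
    have h1 : ∀ (i : Fin P.N) (j : Fin P'.N),
        ∫ z in (pc (P.e i) (P'.e j)).target,
          (P.ρ i ((pc (P.e i) (P'.e j)).symm z).1 * P'.ρ j ((pc (P.e i) (P'.e j)).symm z).2) *
            E (pc (P.e i) (P'.e j)) z =
        (∫ z in (P.e i).target, P.ρ i ((P.e i).symm z) * D (P.e i) z) *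
          ∫ z in (P'.e j).target, P'.ρ j ((P'.e j).symm z) * D' (P'.e j) z := by
      intro i j
      rw [← integral_pc]
      refine setIntegral_congr_fun (pc (P.e i) (P'.e j)).open_target.measurableSet fun z hz => ?_
      simp only [pc_symm_apply]
      rw [h _ (P.mem i) _ (P'.mem j) z hz]
      ring
    rw [← finProdFinEquiv.sum_comp]
    simp only [Equiv.symm_apply_apply]
    rw [Fintype.sum_prod_type]
    simp only [h1]
    rw [intX, intX, Finset.sum_mul_sum]
  · -- supports
    set i := (finProdFinEquiv.symm k).1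
    set j := (finProdFinEquiv.symm k).2
    have hc : IsClosed (tsupport (P.ρ i) ×ˢ tsupport (P'.ρ j)) :=
      (isClosed_tsupport _).prod (isClosed_tsupport _)
    have h1 : tsupport (fun p : X × Y => P.ρ i p.1 * P'.ρ j p.2) ⊆
        tsupport (P.ρ i) ×ˢ tsupport (P'.ρ j) := by
      refine closure_minimal ?_ hc
      intro p hp
      rw [Function.mem_support] at hp
      exact ⟨subset_tsupport _ (left_ne_zero_of_mul hp), subset_tsupport _ (right_ne_zero_of_mul hp)⟩
    refine h1.trans ?_
    rintro p ⟨h2, h3⟩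
    exact ⟨P.supp _ h2, P'.supp _ h3⟩
  · rw [← finProdFinEquiv.sum_comp]
    simp only [Equiv.symm_apply_apply]
    rw [Fintype.sum_prod_type]
    simp only [← Finset.mul_sum]
    rw [P'.sum, ← Finset.sum_mul]
    simp [P.sum]

end

section
variable {w : Chart n X → Cm n → Matrix (Fin n) (Fin n) ℂ}
  {w' : Chart m Y → Cm m → Matrix (Fin m) (Fin m) ℂ}

lemma cHess_sum_sep {f : Cm n → ℝ} {g : Cm m → ℝ} {z : Cm (n + m)}
    (hf : ContDiffAt ℝ ∞ f (fstP z)) (hg : ContDiffAt ℝ ∞ g (sndP z)) :
    cHess (fun y : Cm (n + m) => f (fstP y) + g (sndP y)) z =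
      bd (cHess f (fstP z)) (cHess g (sndP z)) := by
  have hf' : ContDiffAt ℝ 2 (fun y : Cm (n + m) => f (fstP y)) z :=
    (ContDiffAt.comp z (g := f) hf contDiff_fstP.contDiffAt).of_le
      (by exact WithTop.coe_le_coe.2 le_top)
  have hg' : ContDiffAt ℝ 2 (fun y : Cm (n + m) => g (sndP y)) z :=
    (ContDiffAt.comp z (g := g) hg contDiff_sndP.contDiffAt).of_le
      (by exact WithTop.coe_le_coe.2 le_top)
  rw [cHess_add hf' hg']
  have h1 : cHess (fun y : Cm (n + m) => f (fstP y)) z = bd (cHess f (fstP z)) 0 := by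
    refine ext_blocks (fun i j => ?_) (fun i j => ?_) (fun i j => ?_) (fun i j => ?_)
    · simp only [cHess, Matrix.of_apply, bd_ll]
      rw [fun_fst_l (fun y => ((f y : ℝ) : ℂ)) j]
      exact dz_fst_l i (dzb j fun y => ((f y : ℝ) : ℂ)) z
    · simp only [cHess, Matrix.of_apply, bd_lr]
      rw [fun_fst_r (fun y => ((f y : ℝ) : ℂ)) j, dz_const]
    · simp only [cHess, Matrix.of_apply, bd_rl]
      rw [fun_fst_l (fun y => ((f y : ℝ) : ℂ)) i]
      exact dz_fst_r j (dzb i fun y => ((f y : ℝ) : ℂ)) z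
    · simp only [cHess, Matrix.of_apply, bd_rr]
      rw [fun_fst_r (fun y => ((f y : ℝ) : ℂ)) j, dz_const]
      rfl
  have h2 : cHess (fun y : Cm (n + m) => g (sndP y)) z = bd 0 (cHess g (sndP z)) := by
    refine ext_blocks (fun i j => ?_) (fun i j => ?_) (fun i j => ?_) (fun i j => ?_)
    · simp only [cHess, Matrix.of_apply, bd_ll]
      rw [fun_snd_l (fun y => ((g y : ℝ) : ℂ)) j, dz_const]
      rfl
    · simp only [cHess, Matrix.of_apply, bd_lr]
      rw [fun_snd_r (fun y => ((g y : ℝ) : ℂ)) j]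
      exact dz_snd_l i (dzb j fun y => ((g y : ℝ) : ℂ)) z
    · simp only [cHess, Matrix.of_apply, bd_rl]
      rw [fun_snd_l (fun y => ((g y : ℝ) : ℂ)) i, dz_const]
    · simp only [cHess, Matrix.of_apply, bd_rr]
      rw [fun_snd_r (fun y => ((g y : ℝ) : ℂ)) j]
      exact dz_snd_r i (dzb j fun y => ((g y : ℝ) : ℂ)) z
  rw [h1, h2]
  refine ext_blocks (fun i j => ?_) (fun i j => ?_) (fun i j => ?_) (fun i j => ?_) <;>
    simp

end

section
variable [IsManifold 𝓘(ℂ, Cm n) ω X] [IsManifold 𝓘(ℂ, Cm m) ω Y] [T2Space X] [T2Space Y]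
  [CompactSpace X] [CompactSpace Y]
  {w : Chart n X → Cm n → Matrix (Fin n) (Fin n) ℂ}
  {w' : Chart m Y → Cm m → Matrix (Fin m) (Fin m) ℂ}

lemma det_im_cHess {k : ℕ} {f : Cm k → ℝ} {z : Cm k} (hf : ContDiffAt ℝ ∞ f z) :
    (cHess f z).det.im = 0 := by
  have h1 : (cHess f z).IsHermitian :=
    cHess_isHermitian (hf.of_le (by exact WithTop.coe_le_coe.2 le_top))
  have h2 : star (cHess f z).det = (cHess f z).det := by
    rw [← Matrix.det_conjTranspose, h1.eq]
  have h3 := congrArg Complex.im h2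
  simp only [Complex.star_def, Complex.conj_im] at h3
  linarith

/-- **`(K_{X × Y})^{n+m}` is the product of `(K_X)^n` and `(K_Y)^m`** (with the normalisation of
`PP`). -/
theorem PP_prod (hw : IsKahler w) (hw' : IsKahler w') :
    haveI : IsManifold 𝓘(ℂ, Cm (n + m)) ω (X × Y) := isManifold_prod
    PP (AMP.BIG.phi0 (pm w w')) (pm w w') 0 =
      PP (AMP.BIG.phi0 w) w 0 * PP (AMP.BIG.phi0 w') w' 0 := by
  haveI : IsManifold 𝓘(ℂ, Cm (n + m)) ω (X × Y) := isManifold_prod
  have hW := pm_kahler hw hw'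
  have hc := AMP.Main.isCanonical_logdet hW.toIsHermitian
  have hd : IsDensity fun (E : Chart (n + m) (X × Y)) z =>
      (cHess (AMP.BIG.phi0 (pm w w') E) z + ((0 : ℝ) : ℂ) • pm w w' E z).det.re :=
    ((INT.isClosedForm_canonical hc).add
      ((INT.IsKahler.isClosedForm hW).smul ((0 : ℝ) : ℂ))).isDensity
  unfold PP
  refine intX_prod hd ?_
  intro e he e' he' z hz
  rw [mem_pc_target] at hz
  have hx : At e (e.symm (fstP z)) := At.of_target he hz.1
  have hy : At e' (e'.symm (sndP z)) := At.of_target he' hz.2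
  simp only [Complex.ofReal_zero, zero_smul, add_zero]
  have h1 : pm w w' (pc e e') = bm (w e) (w' e') :=
    pm_pc (p := (e.symm (fstP z), e'.symm (sndP z))) hx hy
  have h2 : AMP.BIG.phi0 (pm w w') (pc e e') =ᶠ[𝓝 z]
      fun y => Real.log (w e (fstP y)).det.re + Real.log (w' e' (sndP y)).det.re := by
    have ht : (pc e e').target ∈ 𝓝 z := (pc e e').open_target.mem_nhds (by
      rw [mem_pc_target]; exact hz)
    filter_upwards [ht] with y hy'
    rw [mem_pc_target] at hy'
    have hx1 : At e (e.symm (fstP y)) := At.of_target he hy'.1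
    have hy1 : At e' (e'.symm (sndP y)) := At.of_target he' hy'.2
    have p1 := INT.posDef_det_re (hw.posDef e _ hx1)
    have p2 := INT.posDef_det_re (hw'.posDef e' _ hy1)
    rw [e.right_inv hy'.1] at p1
    rw [e'.right_inv hy'.2] at p2
    unfold AMP.BIG.phi0
    rw [h1]
    simp only [bm]
    rw [bd_det, Complex.mul_re]
    have i1 : (w e (fstP y)).det.im = 0 := by
      have := (hw.posDef e _ hx1).det_pos
      rw [e.right_inv hy'.1] at this
      exact (Complex.lt_def.1 this).2.symm
    rw [i1, zero_mul, sub_zero, Real.log_mul p1.1.ne' p2.1.ne']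
  rw [cHess_congr h2]
  have s1 := (AMP.Main.isCanonical_logdet hw.toIsHermitian).smooth e _ hx
  have s2 := (AMP.Main.isCanonical_logdet hw'.toIsHermitian).smooth e' _ hy
  rw [e.right_inv hz.1] at s1
  rw [e'.right_inv hz.2] at s2
  rw [cHess_sum_sep s1 s2, bd_det, Complex.mul_re, det_im_cHess s1, zero_mul, sub_zero]
  rfl

end

end Vale.Agent.P272.K.Prod
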